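import Mathlib

/-!
P365-T2, the count with a Lipschitz function of the block energy (helper211).
`Th A C F = A * F^2/(A+F) + C * F` : smooth on `F ≥ 0`, `|Th'| ≤ A + C`, `0 ≤ Th'' ≤ 2`,
`A * psi' ≥ (3/4) * min F A`, `Th A C F ≤ F^2 + C * F`.
If a kick has mean loss `q` and second moment `≤ C * q` then
`∫ Th (F') ≤ Th F - A * psi'(F) * q ≤ Th F - (3/4) * min F A * q`.
-/

open MeasureTheory

namespace P365T2.H211

/-- `psi_A(F) = F^2/(A+F)`. -/
noncomputable def psi (A F : ℝ) : ℝ := F ^ 2 / (A + F)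

/-- derivative of `psi`. -/
noncomputable def dpsi (A F : ℝ) : ℝ := F * (F + 2 * A) / (A + F) ^ 2

/-- second derivative of `psi`. -/
noncomputable def ddpsi (A F : ℝ) : ℝ := 2 * A ^ 2 / (A + F) ^ 3

noncomputable def Th (A C F : ℝ) : ℝ := A * psi A F + C * F

noncomputable def dTh (A C F : ℝ) : ℝ := A * dpsi A F + C

variable {A C F F' : ℝ}

theorem hasDerivAt_psi (hA : 0 < A) (hF : 0 ≤ F) : HasDerivAt (psi A) (dpsi A F) F := by
  have h1 : HasDerivAt (fun F : ℝ => F ^ 2) (2 * F) F := by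
    simpa using hasDerivAt_pow 2 F
  have h2 : HasDerivAt (fun F : ℝ => A + F) 1 F := by
    simpa using (hasDerivAt_id F).const_add A
  have hne : A + F ≠ 0 := by positivity
  have h3 := h1.div h2 hne
  have he : dpsi A F = (2 * F * (A + F) - F ^ 2 * 1) / (A + F) ^ 2 := by
    unfold dpsi
    congr 1
    ring
  rw [he]
  exact h3

theorem hasDerivAt_dpsi (hA : 0 < A) (hF : 0 ≤ F) : HasDerivAt (dpsi A) (ddpsi A F) F := by
  have h1 : HasDerivAt (fun F : ℝ => F * (F + 2 * A)) (1 * (F + 2 * A) + F * 1) F := by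
    exact (hasDerivAt_id F).mul ((hasDerivAt_id F).add_const (2 * A))
  have h2 : HasDerivAt (fun F : ℝ => (A + F) ^ 2) (2 * (A + F) * 1) F := by
    have h0 : HasDerivAt (fun F : ℝ => A + F) 1 F := by
      simpa using (hasDerivAt_id F).const_add A
    have h1 : HasDerivAt (fun F : ℝ => (A + F) * (A + F)) (1 * (A + F) + (A + F) * 1) F :=
      h0.mul h0
    have h2 : (fun F : ℝ => (A + F) ^ 2) = fun F : ℝ => (A + F) * (A + F) := by
      funext F; ring
    have h3 : 2 * (A + F) * 1 = 1 * (A + F) + (A + F) * 1 := by ring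
    rw [h2, h3]
    exact h1
  have hne : (A + F) ^ 2 ≠ 0 := by positivity
  have h3 := h1.div h2 hne
  have hne' : A + F ≠ 0 := by positivity
  have he : ddpsi A F = ((1 * (F + 2 * A) + F * 1) * (A + F) ^ 2 -
      F * (F + 2 * A) * (2 * (A + F) * 1)) / ((A + F) ^ 2) ^ 2 := by
    unfold ddpsi
    field_simp
    ring
  rw [he]
  exact h3

theorem psi_nonneg (hA : 0 < A) (hF : 0 ≤ F) : 0 ≤ psi A F := by
  unfold psi; positivity

theorem dpsi_nonneg (hA : 0 < A) (hF : 0 ≤ F) : 0 ≤ dpsi A F := by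
  unfold dpsi; positivity

theorem dpsi_le_one (hA : 0 < A) (hF : 0 ≤ F) : dpsi A F ≤ 1 := by
  unfold dpsi
  rw [div_le_one (by positivity)]
  nlinarith [sq_nonneg A]

theorem ddpsi_nonneg (hA : 0 < A) (hF : 0 ≤ F) : 0 ≤ ddpsi A F := by
  unfold ddpsi; positivity

theorem ddpsi_le (hA : 0 < A) (hF : 0 ≤ F) : ddpsi A F ≤ 2 / A := by
  unfold ddpsi
  rw [div_le_div_iff₀ (by positivity) hA]
  have h : A ^ 3 ≤ (A + F) ^ 3 := pow_le_pow_left₀ hA.le (by linarith) 3
  nlinarith [h]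

/-- exact Taylor formula of `psi`. -/
theorem psi_taylor (hA : 0 < A) (hF : 0 ≤ F) (hF' : 0 ≤ F') :
    psi A F' - psi A F - dpsi A F * (F' - F) =
      A ^ 2 * (F' - F) ^ 2 / ((A + F') * (A + F) ^ 2) := by
  have h1 : A + F ≠ 0 := by positivity
  have h2 : A + F' ≠ 0 := by positivity
  unfold psi dpsi
  field_simp
  ring

theorem psi_taylor_le (hA : 0 < A) (hF : 0 ≤ F) (hF' : 0 ≤ F') :
    psi A F' ≤ psi A F + dpsi A F * (F' - F) + (F' - F) ^ 2 / A := by
  have h := psi_taylor hA hF hF'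
  have h3 : A ^ 2 * (F' - F) ^ 2 / ((A + F') * (A + F) ^ 2) ≤ (F' - F) ^ 2 / A := by
    rw [div_le_div_iff₀ (by positivity) hA]
    have h4 : A * A ^ 2 ≤ (A + F') * (A + F) ^ 2 := by
      have h5 : A ^ 2 ≤ (A + F) ^ 2 := pow_le_pow_left₀ hA.le (by linarith) 2
      have h6 : A ≤ A + F' := by linarith
      exact mul_le_mul h6 h5 (by positivity) (by positivity)
    nlinarith [mul_le_mul_of_nonneg_left h4 (sq_nonneg (F' - F))]
  linarith

theorem psi_convex (hA : 0 < A) (hF : 0 ≤ F) (hF' : 0 ≤ F') :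
    psi A F + dpsi A F * (F' - F) ≤ psi A F' := by
  have h := psi_taylor hA hF hF'
  have h3 : 0 ≤ A ^ 2 * (F' - F) ^ 2 / ((A + F') * (A + F) ^ 2) := by positivity
  linarith

theorem psi_lip (hA : 0 < A) (hF : 0 ≤ F) (hF' : 0 ≤ F') : |psi A F' - psi A F| ≤ |F' - F| := by
  have h1 : psi A F' - psi A F = (F' * F + A * (F' + F)) * (F' - F) / ((A + F') * (A + F)) := by
    have h1 : A + F ≠ 0 := by positivity
    have h2 : A + F' ≠ 0 := by positivity
    unfold psi
    field_simp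
    ring
  rw [h1, mul_div_right_comm, abs_mul]
  have h2 : |(F' * F + A * (F' + F)) / ((A + F') * (A + F))| ≤ 1 := by
    rw [abs_of_nonneg (by positivity), div_le_one (by positivity)]
    nlinarith [sq_nonneg A]
  calc _ ≤ 1 * |F' - F| := mul_le_mul_of_nonneg_right h2 (abs_nonneg _)
    _ = _ := one_mul _

/-- `A * psi_A(F) ≤ F^2` : start value uniform in `A`. -/
theorem A_mul_psi_le (hA : 0 < A) (hF : 0 ≤ F) : A * psi A F ≤ F ^ 2 := by
  unfold psi
  rw [mul_div_assoc', div_le_iff₀ (by positivity)]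
  nlinarith [mul_nonneg (sq_nonneg F) hF]

/-- `A * psi_A'(F) ≥ (3/4) min F A`. -/
theorem min_le_A_mul_dpsi (hA : 0 < A) (hF : 0 ≤ F) : (3 / 4) * min F A ≤ A * dpsi A F := by
  unfold dpsi
  rw [mul_div_assoc', le_div_iff₀ (by positivity)]
  rcases le_total F A with h | h
  · rw [min_eq_left h]
    nlinarith [mul_nonneg hF (sub_nonneg.2 h), mul_nonneg hF hA.le,
      mul_nonneg (mul_nonneg hF hA.le) (sub_nonneg.2 h),
      mul_nonneg (mul_nonneg hF hF) (sub_nonneg.2 h)]
  · rw [min_eq_right h]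
    nlinarith [mul_nonneg hA.le (sub_nonneg.2 h), mul_nonneg hF hA.le,
      mul_nonneg (mul_nonneg hF hA.le) (sub_nonneg.2 h),
      mul_nonneg (mul_nonneg hA.le hA.le) (sub_nonneg.2 h)]

theorem Th_nonneg (hA : 0 < A) (hC : 0 ≤ C) (hF : 0 ≤ F) : 0 ≤ Th A C F := by
  have := psi_nonneg hA hF
  unfold Th; positivity

theorem Th_le (hA : 0 < A) (hF : 0 ≤ F) : Th A C F ≤ F ^ 2 + C * F := by
  have := A_mul_psi_le hA hF
  unfold Th; linarith

theorem hasDerivAt_Th (hA : 0 < A) (hF : 0 ≤ F) : HasDerivAt (Th A C) (dTh A C F) F := by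
  have h1 := (hasDerivAt_psi hA hF).const_mul A
  have h2 : HasDerivAt (fun F : ℝ => C * F) C F := by
    simpa using (hasDerivAt_id F).const_mul C
  exact h1.add h2

theorem dTh_nonneg (hA : 0 < A) (hC : 0 ≤ C) (hF : 0 ≤ F) : 0 ≤ dTh A C F := by
  have := dpsi_nonneg hA hF
  unfold dTh; positivity

theorem dTh_le (hA : 0 < A) (hF : 0 ≤ F) : dTh A C F ≤ A + C := by
  have := mul_le_mul_of_nonneg_left (dpsi_le_one hA hF) hA.le
  unfold dTh; linarith

theorem A_le_dTh_sub (hA : 0 < A) (hF : 0 ≤ F) (h : A ≤ F) : (3 / 4) * A ≤ dTh A C F - C := by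
  have h1 := min_le_A_mul_dpsi hA hF
  rw [min_eq_right h] at h1
  unfold dTh; linarith

theorem min_le_dTh_sub (hA : 0 < A) (hF : 0 ≤ F) : (3 / 4) * min F A ≤ dTh A C F - C := by
  have h1 := min_le_A_mul_dpsi hA hF
  unfold dTh; linarith

theorem C_le_dTh (hA : 0 < A) (hF : 0 ≤ F) : C ≤ dTh A C F := by
  have h1 := mul_nonneg hA.le (dpsi_nonneg hA hF)
  unfold dTh; linarith

theorem hasDerivAt_dTh (hA : 0 < A) (hF : 0 ≤ F) :
    HasDerivAt (dTh A C) (A * ddpsi A F) F :=
  ((hasDerivAt_dpsi hA hF).const_mul A).add_const C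

theorem ddTh_nonneg (hA : 0 < A) (hF : 0 ≤ F) : 0 ≤ A * ddpsi A F :=
  mul_nonneg hA.le (ddpsi_nonneg hA hF)

theorem ddTh_le (hA : 0 < A) (hF : 0 ≤ F) : A * ddpsi A F ≤ 2 := by
  have h := mul_le_mul_of_nonneg_left (ddpsi_le hA hF) hA.le
  have h2 : A * (2 / A) = 2 := by field_simp
  linarith

/-- `dTh` is nondecreasing and Lipschitz with constant `2`, uniformly in `A`, `C`. -/
theorem dTh_sub (hA : 0 < A) (hF : 0 ≤ F) (hF' : 0 ≤ F') (h : F ≤ F') :
    0 ≤ dTh A C F' - dTh A C F ∧ dTh A C F' - dTh A C F ≤ 2 * (F' - F) := by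
  have h1 : dTh A C F' - dTh A C F =
      A ^ 3 * ((2 * A + F + F') * (F' - F)) / ((A + F) ^ 2 * (A + F') ^ 2) := by
    have h1 : A + F ≠ 0 := by positivity
    have h2 : A + F' ≠ 0 := by positivity
    unfold dTh dpsi
    field_simp
    ring
  have h0 : 0 ≤ F' - F := by linarith
  refine ⟨by rw [h1]; positivity, ?_⟩
  rw [h1, div_le_iff₀ (by positivity)]
  have h2 : A ^ 3 * (2 * A + F + F') ≤ 2 * ((A + F) ^ 2 * (A + F') ^ 2) := by
    have e1 : A ^ 2 ≤ (A + F) ^ 2 := pow_le_pow_left₀ hA.le (by linarith) 2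
    have e2 : A ^ 2 ≤ (A + F') ^ 2 := pow_le_pow_left₀ hA.le (by linarith) 2
    have e3 : A * (A + F) ≤ (A + F) ^ 2 := by nlinarith
    have e4 : A * (A + F') ≤ (A + F') ^ 2 := by nlinarith
    have e5 : A ^ 2 * (A * (A + F)) ≤ (A + F') ^ 2 * (A + F) ^ 2 :=
      mul_le_mul e2 e3 (by positivity) (by positivity)
    have e6 : A ^ 2 * (A * (A + F')) ≤ (A + F) ^ 2 * (A + F') ^ 2 :=
      mul_le_mul e1 e4 (by positivity) (by positivity)
    nlinarith [e5, e6]
  nlinarith [mul_le_mul_of_nonneg_right h2 h0]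

theorem dTh_lip (hA : 0 < A) (hF : 0 ≤ F) (hF' : 0 ≤ F') :
    |dTh A C F' - dTh A C F| ≤ 2 * |F' - F| := by
  rcases le_total F F' with h | h
  · have h1 := dTh_sub (C := C) hA hF hF' h
    rw [abs_of_nonneg h1.1, abs_of_nonneg (by linarith)]
    exact h1.2
  · have h1 := dTh_sub (C := C) hA hF' hF h
    rw [abs_sub_comm, abs_sub_comm F', abs_of_nonneg h1.1, abs_of_nonneg (by linarith)]
    exact h1.2

theorem Th_zero : Th A C 0 = 0 := by unfold Th psi; simp

theorem Th_mono (hA : 0 < A) (hC : 0 ≤ C) (hF : 0 ≤ F) (h : F ≤ F') : Th A C F ≤ Th A C F' := by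
  have hF' : 0 ≤ F' := hF.trans h
  have h1 := psi_convex hA hF hF'
  have h2 := mul_nonneg (dpsi_nonneg hA hF) (sub_nonneg.2 h)
  have h3 : psi A F ≤ psi A F' := by linarith
  have h4 := mul_le_mul_of_nonneg_left h3 hA.le
  have h5 := mul_le_mul_of_nonneg_left h hC
  unfold Th; linarith

theorem Th_le_lin (hA : 0 < A) (hF : 0 ≤ F) : Th A C F ≤ (A + C) * F := by
  have h : psi A F ≤ F := by
    unfold psi
    rw [div_le_iff₀ (by positivity)]
    nlinarith [mul_nonneg hF hA.le]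
  have h4 := mul_le_mul_of_nonneg_left h hA.le
  unfold Th; linarith

theorem Th_lip (hA : 0 < A) (hC : 0 ≤ C) (hF : 0 ≤ F) (hF' : 0 ≤ F') :
    |Th A C F' - Th A C F| ≤ (A + C) * |F' - F| := by
  have h1 : Th A C F' - Th A C F = A * (psi A F' - psi A F) + C * (F' - F) := by
    unfold Th; ring
  rw [h1]
  calc |A * (psi A F' - psi A F) + C * (F' - F)|
      ≤ |A * (psi A F' - psi A F)| + |C * (F' - F)| := abs_add_le _ _
    _ = A * |psi A F' - psi A F| + C * |F' - F| := by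
        rw [abs_mul, abs_mul, abs_of_pos hA, abs_of_nonneg hC]
    _ ≤ A * |F' - F| + C * |F' - F| := by
        have := mul_le_mul_of_nonneg_left (psi_lip hA hF hF') hA.le
        linarith
    _ = _ := by ring

/-- **one kick**: mean loss `q`, second moment `≤ C q`. -/
theorem kick {T : Type*} [MeasurableSpace T] (ν : Measure T) [IsProbabilityMeasure ν]
    {G : T → ℝ} {q : ℝ} (hA : 0 < A) (hC : 0 ≤ C) (hF : 0 ≤ F) (hG : ∀ t, 0 ≤ G t)
    (hi : Integrable G ν) (hi2 : Integrable (fun t => (G t - F) ^ 2) ν)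
    (hm : ∫ t, G t ∂ν ≤ F - q) (hv : ∫ t, (G t - F) ^ 2 ∂ν ≤ C * q) :
    ∫ t, Th A C (G t) ∂ν ≤ Th A C F - A * dpsi A F * q := by
  have hpt : ∀ t, Th A C (G t) ≤
      (Th A C F - dTh A C F * F) + (dTh A C F * G t + (G t - F) ^ 2) := by
    intro t
    have h1 := psi_taylor_le hA hF (hG t)
    have h2 := mul_le_mul_of_nonneg_left h1 hA.le
    have h3 : A * ((G t - F) ^ 2 / A) = (G t - F) ^ 2 := by field_simp
    unfold Th dTh
    nlinarith [h2, h3]
  have hmeas : AEStronglyMeasurable (fun t => Th A C (G t)) ν := by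
    have h1 : AEMeasurable G ν := hi.aestronglyMeasurable.aemeasurable
    have h2 : AEMeasurable (fun t => Th A C (G t)) ν := by
      unfold Th psi
      exact ((((h1.pow_const 2).div (h1.const_add A)).const_mul A).add (h1.const_mul C))
    exact h2.aestronglyMeasurable
  have hint : Integrable (fun t => Th A C (G t)) ν := by
    refine Integrable.mono' ((integrable_const (Th A C F + (A + C) * |F|)).add
      (hi.abs.const_mul (A + C))) hmeas (Filter.Eventually.of_forall fun t => ?_)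
    have h1 := Th_lip hA hC hF (hG t)
    have h2 : |Th A C (G t)| ≤ |Th A C F| + |Th A C (G t) - Th A C F| := by
      have := abs_add_le (Th A C F) (Th A C (G t) - Th A C F)
      simpa using this
    rw [abs_of_nonneg (Th_nonneg hA hC hF)] at h2
    have h3 : |G t - F| ≤ |G t| + |F| := abs_sub _ _
    have h4 : 0 ≤ A + C := by positivity
    have h5 := mul_le_mul_of_nonneg_left h3 h4
    simp only [Real.norm_eq_abs, Pi.add_apply]
    nlinarith [h1, h2, h5]
  calc ∫ t, Th A C (G t) ∂ν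
      ≤ ∫ t, ((Th A C F - dTh A C F * F) + (dTh A C F * G t + (G t - F) ^ 2)) ∂ν :=
        integral_mono hint ((integrable_const _).add ((hi.const_mul _).add hi2)) hpt
    _ = (Th A C F - dTh A C F * F) + (dTh A C F * ∫ t, G t ∂ν + ∫ t, (G t - F) ^ 2 ∂ν) := by
        have h1 : Integrable (fun t => dTh A C F * G t) ν := hi.const_mul _
        have h2 : Integrable (fun t => dTh A C F * G t + (G t - F) ^ 2) ν := h1.add hi2
        rw [integral_add (integrable_const _) h2, integral_add h1 hi2, integral_const_mul]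
        simp
    _ ≤ (Th A C F - dTh A C F * F) + (dTh A C F * (F - q) + C * q) := by
        have := mul_le_mul_of_nonneg_left hm (dTh_nonneg hA hC hF)
        linarith
    _ = Th A C F - A * dpsi A F * q := by unfold dTh; ring

theorem kick_min {T : Type*} [MeasurableSpace T] (ν : Measure T) [IsProbabilityMeasure ν]
    {G : T → ℝ} {q : ℝ} (hA : 0 < A) (hC : 0 ≤ C) (hF : 0 ≤ F) (hG : ∀ t, 0 ≤ G t)
    (hi : Integrable G ν) (hi2 : Integrable (fun t => (G t - F) ^ 2) ν) (hq : 0 ≤ q)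
    (hm : ∫ t, G t ∂ν ≤ F - q) (hv : ∫ t, (G t - F) ^ 2 ∂ν ≤ C * q) :
    ∫ t, Th A C (G t) ∂ν ≤ Th A C F - (3 / 4) * min F A * q := by
  have h1 := kick ν hA hC hF hG hi hi2 hm hv
  have h2 := mul_le_mul_of_nonneg_right (min_le_A_mul_dpsi hA hF) hq
  linarith

theorem measurable_Th : Measurable (Th A C) := by
  unfold Th psi
  exact (((measurable_id.pow_const 2).div (measurable_id.const_add A)).const_mul A).add
    (measurable_id.const_mul C)

theorem measurable_dTh : Measurable (dTh A C) := by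
  unfold dTh dpsi
  exact (((measurable_id.mul (measurable_id.add_const (2 * A))).div
    ((measurable_id.const_add A).pow_const 2)).const_mul A).add_const C

/-- start value: `E Th ≤ E F^2 + C E F`, uniformly in `A`. -/
theorem int_Th_le {T : Type*} [MeasurableSpace T] (ν : Measure T) {G : T → ℝ}
    (hA : 0 < A) (hC : 0 ≤ C) (hG : ∀ t, 0 ≤ G t)
    (hi : Integrable G ν) (hi2 : Integrable (fun t => (G t) ^ 2) ν) :
    ∫ t, Th A C (G t) ∂ν ≤ ∫ t, (G t) ^ 2 ∂ν + C * ∫ t, G t ∂ν := by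
  rw [← integral_const_mul, ← integral_add hi2 (hi.const_mul C)]
  refine integral_mono_of_nonneg (Filter.Eventually.of_forall fun t => Th_nonneg hA hC (hG t))
    (hi2.add (hi.const_mul C)) (Filter.Eventually.of_forall fun t => ?_)
  exact Th_le hA (hG t)

end P365T2.H211
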